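import Mathlib

/-!
# Runs of a convex class function (P262, milestone 2, THR)

If all the sets `{j ≤ J : c ≤ kl j}` are intervals, then every class occupies at most two runs of
consecutive indices.
-/

open Finset
open scoped ENNReal

namespace Vale.Agent.P262.H716

/-- a set of indices which is an interval (or empty) -/
lemma sum_le_of_conn {s : Finset ℕ} {F : ℕ → ℝ≥0∞} {B : ℝ≥0∞}
    (hconn : ∀ a ∈ s, ∀ b ∈ s, ∀ k, a ≤ k → k ≤ b → k ∈ s)
    (hrun : ∀ a ∈ s, ∀ b ∈ s, a ≤ b → (∀ k, a ≤ k → k ≤ b → k ∈ s) → ∑ j ∈ Icc a b, F j ≤ B) :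
    ∑ j ∈ s, F j ≤ B := by
  rcases s.eq_empty_or_nonempty with rfl | hs
  · simp
  have h1 := s.min'_mem hs
  have h2 := s.max'_mem hs
  have h3 : s = Icc (s.min' hs) (s.max' hs) := by
    ext k
    rw [mem_Icc]
    constructor
    · intro hk
      exact ⟨s.min'_le k hk, s.le_max' k hk⟩
    · rintro ⟨h4, h5⟩
      exact hconn _ h1 _ h2 k h4 h5
  have h6 : s.min' hs ≤ s.max' hs := s.min'_le _ h2
  have h7 := hrun _ h1 _ h2 h6 fun k h8 h9 => hconn _ h1 _ h2 k h8 h9
  rw [← h3] at h7
  exact h7

/-- the indices of one class: at most two runs -/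
lemma sum_class_le {J : ℕ} {kl : ℕ → ℕ}
    (hconv : ∀ c a k b, a ≤ k → k ≤ b → b ≤ J → c ≤ kl a → c ≤ kl b → c ≤ kl k)
    {F : ℕ → ℝ≥0∞} {B : ℝ≥0∞} (c : ℕ)
    (hrun : ∀ a b, a ≤ b → b ≤ J → (∀ j, a ≤ j → j ≤ b → kl j = c) → ∑ j ∈ Icc a b, F j ≤ B) :
    ∑ j ∈ (range (J + 1)).filter (fun j => kl j = c), F j ≤ 2 * B := by
  classical
  by_cases hE : ∃ i0 ≤ J, c + 1 ≤ kl i0
  · obtain ⟨i0, hi0, hk0⟩ := hE
    set s := (range (J + 1)).filter (fun j => kl j = c) with hs
    rw [← sum_filter_add_sum_filter_not s (fun j => j < i0), two_mul]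
    refine add_le_add ?_ ?_
    · refine sum_le_of_conn ?_ ?_
      · intro a ha b hb k h1 h2
        simp only [hs, mem_filter, mem_range] at ha hb ⊢
        refine ⟨⟨by omega, ?_⟩, by omega⟩
        have h3 := hconv c a k b h1 h2 (by omega) ha.1.2.ge hb.1.2.ge
        by_contra hne
        have h4 : c + 1 ≤ kl k := by omega
        have h5 := hconv (c + 1) k b i0 h2 (by omega) hi0 h4 hk0
        omega
      · intro a ha b hb hab hall
        refine hrun a b hab ?_ fun j h1 h2 => ?_
        · simp only [hs, mem_filter, mem_range] at hb; omega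
        · have := hall j h1 h2
          simp only [hs, mem_filter, mem_range] at this
          exact this.1.2
    · refine sum_le_of_conn ?_ ?_
      · intro a ha b hb k h1 h2
        simp only [hs, mem_filter, mem_range] at ha hb ⊢
        refine ⟨⟨by omega, ?_⟩, by omega⟩
        have h3 := hconv c a k b h1 h2 (by omega) ha.1.2.ge hb.1.2.ge
        by_contra hne
        have h4 : c + 1 ≤ kl k := by omega
        have h5 := hconv (c + 1) i0 a k (by omega) h1 (by omega) hk0 h4
        omega
      · intro a ha b hb hab hall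
        refine hrun a b hab ?_ fun j h1 h2 => ?_
        · simp only [hs, mem_filter, mem_range] at hb; omega
        · have := hall j h1 h2
          simp only [hs, mem_filter, mem_range] at this
          exact this.1.2
  · push Not at hE
    have h0 : ∑ j ∈ (range (J + 1)).filter (fun j => kl j = c), F j ≤ B := by
      refine sum_le_of_conn ?_ ?_
      · intro a ha b hb k h1 h2
        simp only [mem_filter, mem_range] at ha hb ⊢
        refine ⟨by omega, ?_⟩
        have h3 := hconv c a k b h1 h2 (by omega) ha.2.ge hb.2.ge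
        have h4 := hE k (by omega)
        omega
      · intro a ha b hb hab hall
        refine hrun a b hab ?_ fun j h1 h2 => ?_
        · simp only [mem_filter, mem_range] at hb; omega
        · have := hall j h1 h2
          simp only [mem_filter, mem_range] at this
          exact this.2
    refine h0.trans ?_
    rw [two_mul]
    exact le_self_add

/-- **sum over a lattice interval, split into the runs of the classes.** -/
theorem sum_runs {J : ℕ} {kl : ℕ → ℕ}
    (hconv : ∀ c a k b, a ≤ k → k ≤ b → b ≤ J → c ≤ kl a → c ≤ kl b → c ≤ kl k)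
    {f N : ℕ} (hf : ∀ j ≤ J, f ≤ kl j) (hN : ∀ j ≤ J, kl j ≤ N)
    {F : ℕ → ℕ → ℝ≥0∞} {B : ℕ → ℝ≥0∞}
    (hrun : ∀ c a b, f ≤ c → c ≤ N → a ≤ b → b ≤ J → (∀ j, a ≤ j → j ≤ b → kl j = c) →
      ∑ j ∈ Icc a b, F c j ≤ B c) :
    ∑ j ∈ range (J + 1), F (kl j) j ≤ 2 * ∑ c ∈ Icc f N, B c := by
  classical
  have h1 : ∑ j ∈ range (J + 1), F (kl j) j =
      ∑ c ∈ Icc f N, ∑ j ∈ (range (J + 1)).filter (fun j => kl j = c), F c j := by
    rw [← sum_fiberwise_of_maps_to (s := range (J + 1)) (t := Icc f N) (g := kl)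
      (fun j hj => by
        rw [mem_range] at hj
        exact mem_Icc.2 ⟨hf j (by omega), hN j (by omega)⟩)]
    refine sum_congr rfl fun c _ => sum_congr rfl fun j hj => ?_
    rw [(mem_filter.1 hj).2]
  rw [h1, mul_sum]
  refine sum_le_sum fun c hc => ?_
  rw [mem_Icc] at hc
  exact sum_class_le hconv c fun a b hab hb hall => hrun c a b hc.1 hc.2 hab hb hall

end Vale.Agent.P262.H716
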