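import Vale.Agent.P262.H716.Base
import Vale.Agent.P262.H837.ThrB
import Vale.Agent.P262.M2.Cls

/-!
# The lattice sum at the target nodes (P262, milestone 2, THR, base case of (STAR'))

`e` a direction of the label space `W`, `L` a measurable set constant along `e` (the layer), `K`,
`K1` the bodies before and after (or conversely).  The part of the body which is lost in the layer
and leaves along `e` within `h` is
`gone K K1 L e h = {y ∈ L, y ∈ K, y ∉ K1, y + h e ∉ K}`.
-/

set_option linter.all false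

open MeasureTheory ProbabilityTheory Set
open scoped ENNReal RealInnerProductSpace

namespace Vale.Agent.P262.H716

open Vale.Agent.P262.H395 (fib Inv mix)
open Vale.Agent.P262.H837 (shd shd_subset shd_add mem_shd_of_leave fib_add_label)

variable {E : Type*} [NormedAddCommGroup E] [InnerProductSpace ℝ E] [FiniteDimensional ℝ E]
  [MeasurableSpace E] [BorelSpace E]

/-- lost points of the layer which leave `K` along `e` within `h` -/
def gone (K K1 L : Set E) (e : E) (h : ℝ) : Set E :=
  {y | y ∈ L ∧ y ∈ K ∧ y ∉ K1 ∧ y + h • e ∉ K}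

lemma measurableSet_gone {K K1 L : Set E} (hK : MeasurableSet K) (hK1 : MeasurableSet K1)
    (hL : MeasurableSet L) (e : E) (h : ℝ) : MeasurableSet (gone K K1 L e h) := by
  have h1 : Measurable fun y : E => y + h • e := measurable_id.add_const _
  exact hL.inter (hK.inter (hK1.compl.inter (h1 hK).compl))

lemma gone_subset {K K1 L : Set E} {e : E} {h : ℝ} : gone K K1 L e h ⊆ (K ∩ K1)ᶜ :=
  fun _ hy hc => hy.2.2.1 hc.2

/-- the layer part of the shadow -/
def sh0 (K L : Set E) (e : E) : Set E := L ∩ shd K e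

/-- the layer part of the shadow together with the lost points -/
def sh1 (K K1 L : Set E) (e : E) (h : ℝ) : Set E := sh0 K L e ∪ gone K K1 L e h

lemma disj_sh {K K1 L : Set E} {e : E} {h : ℝ} : Disjoint (sh0 K L e) (gone K K1 L e h) :=
  Set.disjoint_left.2 fun _ h1 h2 => shd_subset K e h1.2 h2.2.1

lemma sh1_subset {K K1 L : Set E} {e : E} {h : ℝ} : sh1 K K1 L e h ⊆ (K ∩ K1)ᶜ := by
  rintro y (h1 | h1) hc
  · exact shd_subset K e h1.2 hc.1
  · exact gone_subset h1 hc

lemma sh1_subset_layer {K K1 L : Set E} {e : E} {h : ℝ} : sh1 K K1 L e h ⊆ L := by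
  rintro y (h1 | h1)
  · exact h1.1
  · exact h1.1

/-- a lattice step moves `sh1` into `sh0` -/
lemma sh_step {K K1 L : Set E} (hK : Convex ℝ K) {e : E} {h : ℝ} (hh : 0 ≤ h)
    (hLe : ∀ y ∈ L, ∀ t : ℝ, y + t • e ∈ L) {y : E} (hy : y ∈ sh1 K K1 L e h) :
    y + h • e ∈ sh0 K L e := by
  rcases hy with h1 | h1
  · exact ⟨hLe y h1.1 h, shd_add h1.2 hh⟩
  · exact ⟨hLe y h1.1 h, mem_shd_of_leave hK hh h1.2.1 h1.2.2.2⟩

lemma ind_mono {s t : Set E} (h : s ⊆ t) (x : E) :
    s.indicator (1 : E → ℝ≥0∞) x ≤ t.indicator 1 x :=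
  indicator_le_indicator_of_subset h (fun _ => zero_le) x

/-- **base case**: the lattice sum of the lost masses of the layer -/
theorem base_set {W : Submodule ℝ E} {K K1 L : Set E} (hK : Convex ℝ K) (hKm : MeasurableSet K)
    (hK1m : MeasurableSet K1) (hLm : MeasurableSet L) {e : E} (he : e ∈ W)
    (hLe : ∀ y ∈ L, ∀ t : ℝ, y + t • e ∈ L) {h : ℝ} (hh : 0 ≤ h)
    {s th al be : ℝ} (hs : 0 < s) (hth : 0 ≤ th) (h1 : s + th = 1) (hal : 0 ≤ al)
    (hbe : 0 ≤ be) (hab : al + be = s) (x : E) (J : ℕ) :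
    ∑ j ∈ Finset.range (J + 1),
      fib W ((gone K K1 L e h).indicator 1) (x + ((j : ℝ) * h) • e) /
        fib W ((K ∩ K1)ᶜ.indicator 1) (x + ((j : ℝ) * h) • e) ^ th ≤
      ENNReal.ofReal (1 / s) *
        (fib W ((K ∩ K1)ᶜ.indicator 1) (x + ((J : ℝ) * h) • e) ^ al *
          fib W (L.indicator 1) x ^ be) := by
  have hle1 : ∀ (S : Set E) (y : E), fib W (S.indicator 1) y ≤ 1 := fun S y =>
    Vale.Agent.P262.H395.fib_le_one (fun z => by
      by_cases hz : z ∈ S <;> simp [hz]) y
  refine tele_split (M := fun j => fib W ((sh0 K L e).indicator 1) (x + ((j : ℝ) * h) • e))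
    (Mb := fun j => fib W ((sh1 K K1 L e h).indicator 1) (x + ((j : ℝ) * h) • e))
    hs hth h1 hal hbe hab J ?_ ?_ ?_ ?_ ?_ ?_
  · intro j _
    show fib W ((sh0 K L e).indicator 1) (x + ((j : ℝ) * h) • e) +
      fib W ((gone K K1 L e h).indicator 1) (x + ((j : ℝ) * h) • e) ≤ _
    rw [← Vale.Agent.P262.H395.fib_add_right (measurable_one.indicator
      (measurableSet_gone hKm hK1m hLm e h))]
    refine Vale.Agent.P262.H395.fib_mono (fun z => ?_) _
    unfold sh1
    rw [indicator_union_of_disjoint disj_sh]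
  · intro j _
    exact Vale.Agent.P262.H395.fib_mono (fun z => ind_mono sh1_subset z) _
  · intro j _
    exact ne_top_of_le_ne_top ENNReal.one_ne_top (hle1 _ _)
  · intro j _
    have e1 : x + (((j + 1 : ℕ) : ℝ) * h) • e = (x + ((j : ℝ) * h) • e) + h • e := by
      push_cast
      rw [add_mul, one_mul, add_smul, add_assoc]
    show fib W ((sh1 K K1 L e h).indicator 1) (x + ((j : ℝ) * h) • e) ≤
      fib W ((sh0 K L e).indicator 1) (x + (((j + 1 : ℕ) : ℝ) * h) • e)
    rw [e1, fib_add_label _ (W.smul_mem h he)]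
    refine Vale.Agent.P262.H395.fib_mono (fun z => ?_) _
    by_cases hz : z ∈ sh1 K K1 L e h
    · rw [indicator_of_mem hz, indicator_of_mem (sh_step hK hh hLe hz)]
      simp
    · rw [indicator_of_notMem hz]; exact zero_le
  · exact Vale.Agent.P262.H395.fib_mono (fun z => ind_mono sh1_subset z) _
  · have e2 : fib W (L.indicator 1) (x + ((J : ℝ) * h) • e) = fib W (L.indicator 1) x := by
      rw [fib_add_label _ (W.smul_mem _ he)]
      congr 1
      funext z
      by_cases hz : z ∈ L
      · rw [indicator_of_mem hz, indicator_of_mem (hLe z hz _)]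
        simp
      · rw [indicator_of_notMem hz, indicator_of_notMem]
        intro hc
        apply hz
        have := hLe _ hc (-((J : ℝ) * h))
        rwa [neg_smul, add_neg_cancel_right] at this
    show fib W ((sh1 K K1 L e h).indicator 1) (x + ((J : ℝ) * h) • e) ≤ _
    rw [← e2]
    exact Vale.Agent.P262.H395.fib_mono (fun z => ind_mono sh1_subset_layer z) _

end Vale.Agent.P262.H716

namespace Vale.Agent.P262.M2.Sys

open Vale.Agent.P262.H395 (fib Inv mix)
open Vale.Agent.P262.H716 (gone base_set)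

variable {E : Type*} [NormedAddCommGroup E] [InnerProductSpace ℝ E] [FiniteDimensional ℝ E]
  [MeasurableSpace E] [BorelSpace E] (S : Sys E)

open Classical in
/-- payoff of the base case: lost mass of the layer `L` over the power of the deficit; `b` chooses
the roles (`true`: points of `X r m` lost at `m + 1`; `false`: points of `X r (m+1)` not in
`X r m`) -/
noncomputable def gB (m : ℕ) (b : Bool) (L : List ℕ → Set E) (e : E) (h : ℝ) (r : List ℕ) (x : E) :
    ℝ≥0∞ :=
  fib (S.W r m) ((if b then gone (S.X r m) (S.X r (m + 1)) (L r) e h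
    else gone (S.X r (m + 1)) (S.X r m) (L r) e h).indicator 1) x / S.Dc r m x ^ S.th

lemma gB_meas (m : ℕ) (b : Bool) {L : List ℕ → Set E} {r : List ℕ} (hL : MeasurableSet (L r))
    (e : E) (h : ℝ) : Measurable (S.gB m b L e h r) := by
  unfold gB
  refine Measurable.div (Vale.Agent.P262.H395.measurable_fib (measurable_one.indicator ?_))
    ((S.Dc_meas r m).pow_const _)
  split_ifs
  · exact H716.measurableSet_gone (S.measurableSet_X r m) (S.measurableSet_X r (m + 1)) hL e h
  · exact H716.measurableSet_gone (S.measurableSet_X r (m + 1)) (S.measurableSet_X r m) hL e h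

/-- **base case of (STAR') on the system** -/
theorem base_run {m : ℕ} (hm : S.mv.IsStar m ∨ S.mv.IsRot m) (b : Bool) {L : List ℕ → Set E}
    {r : List ℕ} (hL : MeasurableSet (L r)) {e : E} (he : e ∈ S.W r m)
    (hLe : ∀ y ∈ L r, ∀ t : ℝ, y + t • e ∈ L r) {h : ℝ} (hh : 0 ≤ h) {al be : ℝ}
    (hal : 0 ≤ al) (hbe : 0 ≤ be) (hab : al + be = 1 - S.th) (x : E) (J : ℕ) :
    ∑ j ∈ Finset.range (J + 1), S.gB m b L e h r (x + ((j : ℝ) * h) • e) ≤
      ENNReal.ofReal (1 / (1 - S.th)) *
        (S.Dc r m (x + ((J : ℝ) * h) • e) ^ al * fib (S.W r m) ((L r).indicator 1) x ^ be) := by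
  have hth1 := S.hth1
  cases b with
  | true =>
    have h1 := base_set (K := S.X r m) (K1 := S.X r (m + 1)) (S.convex_X r m)
      (S.measurableSet_X r m) (S.measurableSet_X r (m + 1)) hL he hLe hh (s := 1 - S.th)
      (th := S.th) (al := al) (be := be) (by linarith) S.hth.le (by ring) hal hbe hab x J
    simp only [gB, S.Dc_active hm, if_true]
    exact h1
  | false =>
    have h1 := base_set (K := S.X r (m + 1)) (K1 := S.X r m) (S.convex_X r (m + 1))
      (S.measurableSet_X r (m + 1)) (S.measurableSet_X r m) hL he hLe hh (s := 1 - S.th)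
      (th := S.th) (al := al) (be := be) (by linarith) S.hth.le (by ring) hal hbe hab x J
    simp only [gB, S.Dc_active hm, Bool.false_eq_true, if_false]
    rw [inter_comm (S.X r (m + 1))] at h1
    exact h1

/-- the weighted change of the body against the power of the cap -/
lemma xd_le_cap (p : List ℕ) (m : ℕ) (x : E) :
    (S.A p m x / max (S.A p m x) (S.Dc p m x)) ^ S.th * S.Dl p m x ≤
      S.As S.th p m x * (S.Dl p m x / S.Dc p m x ^ S.th) := by
  rcases eq_or_ne (S.Dc p m x) 0 with h0 | h0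
  · have h1 : S.Dl p m x = 0 := by
      have := S.Dl_le_Dc p m x
      rw [h0] at this
      exact le_antisymm this (zero_le)
    rw [h1, mul_zero]
    exact zero_le
  · have hA := S.A_ne_top p m x
    have hA0 := (S.A_pos p m x).ne'
    rw [ENNReal.div_rpow_of_nonneg _ _ S.hth.le, S.A_rpow S.hth.le, div_eq_mul_inv, div_eq_mul_inv,
      mul_assoc, mul_comm (S.Dl p m x)]
    refine mul_le_mul_right (mul_le_mul_left ?_ _) _
    exact ENNReal.inv_le_inv.2 (ENNReal.rpow_le_rpow (le_max_right _ _) S.hth.le)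

end Vale.Agent.P262.M2.Sys
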