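import Mathlib

/-!
# Telescoping along a lattice of a line (P262, milestone 2, THR, base case)

`M ≤ Mb` are the one sided deficits before and after adding the changed part `Δ`; a lattice step
moves the second one below the first one at the next point.
-/

set_option linter.all false

open Finset
open scoped ENNReal

namespace Vale.Agent.P262.H716

/-- `(b - a) b^(-th) ≤ (b^s - a^s) / s`, `s = 1 - th` -/
lemma real_inc {s th a b : ℝ} (hs : 0 < s) (hth : 0 ≤ th) (h1 : s + th = 1) (ha : 0 ≤ a)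
    (hab : a ≤ b) (hb : 0 < b) : s * ((b - a) / b ^ th) ≤ b ^ s - a ^ s := by
  have hbt : 0 < b ^ th := Real.rpow_pos_of_pos hb th
  have h2 := Real.geom_mean_le_arith_mean2_weighted hs.le hth ha hb.le h1
  have h3 : b ^ s * b ^ th = b := by
    rw [← Real.rpow_add hb, h1, Real.rpow_one]
  have h4 : s * (b - a) ≤ (b ^ s - a ^ s) * b ^ th := by
    rw [sub_mul, h3]
    have : th = 1 - s := by linarith
    rw [this] at h2 ⊢
    nlinarith
  rw [← mul_div_assoc, div_le_iff₀ hbt]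
  exact h4

/-- one point of the lattice -/
lemma pow_inc {s th : ℝ} (hs : 0 < s) (hth : 0 ≤ th) (h1 : s + th = 1) {M Mb Δ D : ℝ≥0∞}
    (hadd : M + Δ ≤ Mb) (hD : Mb ≤ D) (hfin : Mb ≠ ⊤) :
    ENNReal.ofReal (1 / s) * M ^ s + Δ / D ^ th ≤ ENNReal.ofReal (1 / s) * Mb ^ s := by
  have hMf : M ≠ ⊤ := ne_top_of_le_ne_top hfin (le_self_add.trans hadd)
  have hΔf : Δ ≠ ⊤ := ne_top_of_le_ne_top hfin (le_add_self.trans hadd)
  rcases eq_or_ne Mb 0 with h0 | h0
  · have h2 : M = 0 := by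
      have := le_self_add.trans hadd
      rw [h0] at this
      exact le_antisymm this (zero_le)
    have h3 : Δ = 0 := by
      have := le_add_self.trans hadd
      rw [h0] at this
      exact le_antisymm this (zero_le)
    rw [h0, h2, h3]
    simp
  have hb : 0 < Mb.toReal := ENNReal.toReal_pos h0 hfin
  have hle : M.toReal ≤ Mb.toReal := ENNReal.toReal_mono hfin (le_self_add.trans hadd)
  have h5 : Δ / D ^ th ≤ Δ / Mb ^ th :=
    ENNReal.div_le_div_left (ENNReal.rpow_le_rpow hD hth) _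
  have h6 : Δ ≤ ENNReal.ofReal (Mb.toReal - M.toReal) := by
    rw [← ENNReal.ofReal_toReal hΔf]
    refine ENNReal.ofReal_le_ofReal ?_
    have := ENNReal.toReal_mono hfin hadd
    rw [ENNReal.toReal_add hMf hΔf] at this
    linarith
  have hbt : 0 < Mb.toReal ^ th := Real.rpow_pos_of_pos hb th
  have h7 : Δ / Mb ^ th ≤ ENNReal.ofReal ((Mb.toReal - M.toReal) / Mb.toReal ^ th) := by
    rw [ENNReal.ofReal_div_of_pos hbt, ← ENNReal.ofReal_rpow_of_nonneg hb.le hth,
      ENNReal.ofReal_toReal hfin]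
    exact ENNReal.div_le_div_right h6 _
  have h8 := real_inc hs hth h1 ENNReal.toReal_nonneg hle hb
  have hM : ENNReal.ofReal (1 / s) * M ^ s = ENNReal.ofReal ((1 / s) * M.toReal ^ s) := by
    rw [ENNReal.ofReal_mul (by positivity), ← ENNReal.ofReal_rpow_of_nonneg ENNReal.toReal_nonneg
      hs.le, ENNReal.ofReal_toReal hMf]
  have hMb : ENNReal.ofReal (1 / s) * Mb ^ s = ENNReal.ofReal ((1 / s) * Mb.toReal ^ s) := by
    rw [ENNReal.ofReal_mul (by positivity), ← ENNReal.ofReal_rpow_of_nonneg ENNReal.toReal_nonneg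
      hs.le, ENNReal.ofReal_toReal hfin]
  rw [hM, hMb]
  refine (add_le_add le_rfl (h5.trans h7)).trans ?_
  have h9 : (0 : ℝ) ≤ (Mb.toReal - M.toReal) / Mb.toReal ^ th :=
    div_nonneg (by linarith) hbt.le
  rw [← ENNReal.ofReal_add (mul_nonneg (by positivity)
    (Real.rpow_nonneg ENNReal.toReal_nonneg _)) h9]
  refine ENNReal.ofReal_le_ofReal ?_
  have h10 : (Mb.toReal - M.toReal) / Mb.toReal ^ th ≤
      (1 / s) * (Mb.toReal ^ s - M.toReal ^ s) := by
    rw [one_div, ← div_eq_inv_mul, le_div_iff₀ hs]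
    linarith
  linarith

/-- **telescoping along the lattice**: `Σ_(j ≤ J) Δ_j / D_j^th ≤ Mb_J^s / s` -/
theorem tele {s th : ℝ} (hs : 0 < s) (hth : 0 ≤ th) (h1 : s + th = 1) (J : ℕ)
    {M Mb Δ D : ℕ → ℝ≥0∞} (hadd : ∀ j ≤ J, M j + Δ j ≤ Mb j) (hD : ∀ j ≤ J, Mb j ≤ D j)
    (hfin : ∀ j ≤ J, Mb j ≠ ⊤) (hstep : ∀ j < J, Mb j ≤ M (j + 1)) :
    ENNReal.ofReal (1 / s) * M 0 ^ s + ∑ j ∈ range (J + 1), Δ j / D j ^ th ≤
      ENNReal.ofReal (1 / s) * Mb J ^ s := by
  induction J with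
  | zero =>
    rw [zero_add, sum_range_one]
    exact pow_inc hs hth h1 (hadd 0 le_rfl) (hD 0 le_rfl) (hfin 0 le_rfl)
  | succ J ih =>
    rw [sum_range_succ, ← add_assoc]
    refine (add_le_add (ih (fun j hj => hadd j (by omega)) (fun j hj => hD j (by omega))
      (fun j hj => hfin j (by omega)) fun j hj => hstep j (by omega)) le_rfl).trans ?_
    refine (add_le_add (mul_le_mul_right (ENNReal.rpow_le_rpow (hstep J (by omega)) hs.le)
      _) le_rfl).trans ?_
    exact pow_inc hs hth h1 (hadd _ le_rfl) (hD _ le_rfl) (hfin _ le_rfl)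

/-- the same, split between the block maximum and the mass of the layer: `s = al + be` -/
theorem tele_split {s th al be : ℝ} (hs : 0 < s) (hth : 0 ≤ th) (h1 : s + th = 1) (hal : 0 ≤ al)
    (hbe : 0 ≤ be) (hab : al + be = s) (J : ℕ)
    {M Mb Δ D : ℕ → ℝ≥0∞} (hadd : ∀ j ≤ J, M j + Δ j ≤ Mb j) (hD : ∀ j ≤ J, Mb j ≤ D j)
    (hfin : ∀ j ≤ J, Mb j ≠ ⊤) (hstep : ∀ j < J, Mb j ≤ M (j + 1)) {DD p : ℝ≥0∞}
    (hDD : Mb J ≤ DD) (hp : Mb J ≤ p) :
    ∑ j ∈ range (J + 1), Δ j / D j ^ th ≤ ENNReal.ofReal (1 / s) * (DD ^ al * p ^ be) := by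
  refine le_add_self.trans ((tele hs hth h1 J hadd hD hfin hstep).trans ?_)
  refine mul_le_mul_right ?_ _
  rw [← hab, ENNReal.rpow_add_of_nonneg _ _ hal hbe]
  exact mul_le_mul' (ENNReal.rpow_le_rpow hDD hal) (ENNReal.rpow_le_rpow hp hbe)

end Vale.Agent.P262.H716
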