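import Vale.Agent.P262.H865.Final

/-!
# Consequences of an upper bound for `σ(d)` (P262)

From a bound `σ(d) ≤ C √d g(d)` for the Euclidean signed prefix constant: the same for `ℓ_p^d`, for
a given number of vectors, for matrices of vectors, and for all normed spaces at given distance
from a subspace of `ℓ_2^d`.
-/

open scoped ENNReal

namespace Vale.Agent.P262.H716

open Vale.Agent.P262 Vale.Agent.P262.H691 Vale.Agent.P262.H865

/-- **All forms of an upper bound for `σ(d)`.** -/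
theorem forms {g : ℕ → ℝ} (hg : ∀ d, 1 ≤ d → 1 / 2 ≤ g d)
    (hσ : ∃ C : ℝ, 0 < C ∧ ∀ d : ℕ, 1 ≤ d →
      signedConst d ≤ ENNReal.ofReal (C * (Real.sqrt d * g d))) :
    ∃ c C : ℝ, 0 < c ∧ 0 < C ∧
    -- (1) the constant of the problem
    (∀ d : ℕ, 1 ≤ d → ENNReal.ofReal (Real.sqrt d) ≤ signedConst d ∧
      signedConst d ≤ ENNReal.ofReal (C * (Real.sqrt d * g d))) ∧
    -- (2) `ℓ_p^d`, `1 ≤ p ≤ 2`, for a given number of vectors
    (∀ (p : ℝ≥0∞) [Fact (1 ≤ p)], p ≤ 2 → ∀ d N : ℕ, 1 ≤ d →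
      ENNReal.ofReal (((min d N : ℕ) : ℝ) ^ (1 / p.toReal)) ≤
        signedN (PiLp p (fun _ : Fin d => ℝ)) N ∧
      signedN (PiLp p (fun _ : Fin d => ℝ)) N ≤
        ENNReal.ofReal (C * (((min d N : ℕ) : ℝ) ^ (1 / p.toReal) *
          min (g d) (Real.sqrt (1 + Real.log N / d))))) ∧
    -- (3) `ℓ_p^d`, `2 ≤ p ≤ ∞`
    (∀ (p : ℝ≥0∞) [Fact (1 ≤ p)], 2 ≤ p → ∀ d : ℕ, 1 ≤ d →
      ENNReal.ofReal (c * Real.sqrt d) ≤ signed (PiLp p (fun _ : Fin d => ℝ)) ∧
      signed (PiLp p (fun _ : Fin d => ℝ)) ≤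
        ENNReal.ofReal (C * ((d : ℝ) ^ (1 - 1 / p.toReal) * g d))) ∧
    -- (4) every normed space at distance at most `D` from a subspace of `ℓ_2^d`
    (∀ (d : ℕ), 1 ≤ d → ∀ (E : Type) [NormedAddCommGroup E] [NormedSpace ℝ E]
        (T : E →ₗ[ℝ] EuclideanSpace ℝ (Fin d)) (D : ℝ), 0 ≤ D →
        (∀ x, ‖T x‖ ≤ ‖x‖ ∧ ‖x‖ ≤ D * ‖T x‖) →
      signed E ≤ ENNReal.ofReal (C * D * (Real.sqrt d * g d))) ∧
    -- (5) matrices of vectors in `ℓ_p^d`, `1 ≤ p ≤ 2`
    (∀ (p : ℝ≥0∞) [Fact (1 ≤ p)], p ≤ 2 → ∀ d m n : ℕ, 1 ≤ d → 1 ≤ m → 2 ≤ n →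
      ENNReal.ofReal (c * ((min d (m * n) : ℕ) : ℝ) ^ (1 / p.toReal)) ≤
        matrixSteinitz (PiLp p (fun _ : Fin d => ℝ)) m n ∧
      matrixSteinitz (PiLp p (fun _ : Fin d => ℝ)) m n ≤
        ENNReal.ofReal (C * (((min d (m * n) : ℕ) : ℝ) ^ (1 / p.toReal) *
          min (g d) (Real.sqrt (1 + Real.log (m * n : ℕ) / d))))) := by
  obtain ⟨C₀, hC₀, hup⟩ := hσ
  obtain ⟨c₁, C₁, hc₁, hC₁, H⟩ := two_parameters
  obtain ⟨K, hK, hK1, hK2⟩ : ∃ K : ℝ, 0 < K ∧ C₀ ≤ K ∧ 7 ≤ K :=
    ⟨C₀ + 7, by linarith, by linarith, by linarith⟩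
  have hg0 : ∀ d, 1 ≤ d → 0 ≤ g d := fun d hd => by have := hg d hd; linarith
  have hG : ∀ d : ℕ, 1 ≤ d → signed (EuclideanSpace ℝ (Fin d)) ≤
      ENNReal.ofReal (K * (Real.sqrt d * g d)) := fun d hd =>
    (hup d hd).trans (ENNReal.ofReal_le_ofReal
      (mul_le_mul_of_nonneg_right hK1 (mul_nonneg (Real.sqrt_nonneg _) (hg0 d hd))))
  have hF : ∀ d N : ℕ, 1 ≤ d → 1 / 2 ≤ min (g d) (Real.sqrt (1 + Real.log N / d)) := by
    intro d N hd
    refine le_min (hg d hd) ?_
    have h1 : (1 : ℝ) ≤ Real.sqrt (1 + Real.log N / d) := by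
      rw [Real.one_le_sqrt]
      have : 0 ≤ Real.log (N : ℝ) / d := div_nonneg (Real.log_natCast_nonneg N) (Nat.cast_nonneg _)
      linarith
    linarith
  have hFm : ∀ d N N' : ℕ, 1 ≤ N → N ≤ N' → min (g d) (Real.sqrt (1 + Real.log N / d)) ≤
      min (g d) (Real.sqrt (1 + Real.log N' / d)) := by
    intro d N N' hN h
    refine min_le_min le_rfl (Real.sqrt_le_sqrt ?_)
    have h1 : Real.log (N : ℝ) ≤ Real.log N' :=
      Real.log_le_log (by exact_mod_cast hN) (by exact_mod_cast h)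
    have h2 : Real.log (N : ℝ) / d ≤ Real.log N' / d :=
      div_le_div_of_nonneg_right h1 (Nat.cast_nonneg _)
    linarith
  -- the bound for `σ(ℓ_p^d, N)`
  have hsig : ∀ (p : ℝ≥0∞) [Fact (1 ≤ p)], p ≤ 2 → ∀ d N : ℕ, 1 ≤ d →
      signedN (PiLp p (fun _ : Fin d => ℝ)) N ≤
        ENNReal.ofReal (K * (((min d N : ℕ) : ℝ) ^ (1 / p.toReal) *
          min (g d) (Real.sqrt (1 + Real.log N / d)))) := by
    intro p hp1 hp d N hd
    have hd0 : (0 : ℝ) < d := by exact_mod_cast hd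
    have hFN := hF d N hd
    set F := min (g d) (Real.sqrt (1 + Real.log N / d)) with hFdef
    rcases Nat.lt_or_ge N d with hNd | hNd
    · refine (signedN_lp_le hp N).trans (ENNReal.ofReal_le_ofReal ?_)
      rw [min_eq_right hNd.le]
      have h1 : 0 ≤ (N : ℝ) ^ (1 / p.toReal) := by positivity
      nlinarith [mul_le_mul_of_nonneg_left hFN h1]
    · have hN1 : 1 ≤ N := hd.trans hNd
      rw [min_eq_left hNd]
      have e : (d : ℝ) ^ (1 / p.toReal - 1 / 2) * Real.sqrt d = (d : ℝ) ^ (1 / p.toReal) := by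
        rw [Real.sqrt_eq_rpow, ← Real.rpow_add hd0]
        congr 1
        ring
      have h2 : signedN (EuclideanSpace ℝ (Fin d)) N ≤ ENNReal.ofReal (K * (Real.sqrt d * F)) := by
        rcases le_total (g d) (Real.sqrt (1 + Real.log N / d)) with h3 | h3
        · have h4 : F = g d := min_eq_left h3
          rw [h4]
          exact (signedN_le N).trans (hG d hd)
        · have h4 : F = Real.sqrt (1 + Real.log N / d) := min_eq_right h3
          rw [h4]
          refine (signedN_euclid_le d N hN1).trans (ENNReal.ofReal_le_ofReal ?_)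
          have h5 : Real.sqrt (d + Real.log N) = Real.sqrt d * Real.sqrt (1 + Real.log N / d) := by
            rw [← Real.sqrt_mul hd0.le]
            congr 1
            field_simp
          rw [h5]
          exact mul_le_mul_of_nonneg_right hK2 (by positivity)
      refine (signedN_le_of_map (toE p d) (by positivity) (le2_a hp) (le2_b hp) N).trans
        ((mul_le_mul_right h2 _).trans ?_)
      rw [← ENNReal.ofReal_mul (by positivity)]
      apply ENNReal.ofReal_le_ofReal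
      refine le_of_eq ?_
      rw [← e]
      ring
  refine ⟨min c₁ (1 / 9), 2 * K, by positivity, by positivity, ?_, ?_, ?_, ?_, ?_⟩
  · intro d hd
    refine ⟨(H.1 d hd).2.1, (hG d hd).trans (ENNReal.ofReal_le_ofReal ?_)⟩
    exact mul_le_mul_of_nonneg_right (by linarith) (mul_nonneg (Real.sqrt_nonneg _) (hg0 d hd))
  · intro p hp1 hp d N hd
    refine ⟨signedN_lower hp N, (hsig p hp d N hd).trans (ENNReal.ofReal_le_ofReal ?_)⟩
    have h1 := hF d N hd
    exact mul_le_mul_of_nonneg_right (by linarith)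
      (mul_nonneg (by positivity) (by linarith))
  · intro p hp1 hp d hd
    have hd0 : (0 : ℝ) < d := by exact_mod_cast hd
    have e : (d : ℝ) ^ (1 / 2 - 1 / p.toReal) * Real.sqrt d = (d : ℝ) ^ (1 - 1 / p.toReal) := by
      rw [Real.sqrt_eq_rpow, ← Real.rpow_add hd0]
      congr 1
      ring
    refine ⟨?_, ?_⟩
    · refine le_trans (ENNReal.ofReal_le_ofReal ?_) (lower_ge2 hp hd).2
      have h9 := min_le_right c₁ (1 / 9 : ℝ)
      exact mul_le_mul_of_nonneg_right (h9.trans (by norm_num)) (Real.sqrt_nonneg _)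
    · refine (signed_ge2 hd hp).trans ((mul_le_mul_right (hG d hd) _).trans ?_)
      rw [← ENNReal.ofReal_mul (by positivity)]
      apply ENNReal.ofReal_le_ofReal
      calc (d : ℝ) ^ (1 / 2 - 1 / p.toReal) * (K * (Real.sqrt d * g d))
          = K * (((d : ℝ) ^ (1 / 2 - 1 / p.toReal) * Real.sqrt d) * g d) := by ring
        _ = K * ((d : ℝ) ^ (1 - 1 / p.toReal) * g d) := by rw [e]
        _ ≤ _ := mul_le_mul_of_nonneg_right (by linarith) (mul_nonneg (by positivity) (hg0 d hd))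
  · intro d hd E _ _ T D hD hT
    refine (signed_le_of_map T hD (fun x => (hT x).1) (fun x => (hT x).2)).trans
      ((mul_le_mul_right (hG d hd) _).trans ?_)
    rw [← ENNReal.ofReal_mul hD]
    apply ENNReal.ofReal_le_ofReal
    calc D * (K * (Real.sqrt d * g d))
        = K * (D * (Real.sqrt d * g d)) := by ring
      _ ≤ 2 * K * (D * (Real.sqrt d * g d)) :=
        mul_le_mul_of_nonneg_right (by linarith)
          (mul_nonneg hD (mul_nonneg (Real.sqrt_nonneg _) (hg0 d hd)))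
      _ = _ := by ring
  · intro p hp1 hp d m n hd hm hn
    refine ⟨le_trans (ENNReal.ofReal_le_ofReal ?_) (H.2.2.2 p hp d m n hd hm hn).1, ?_⟩
    · exact mul_le_mul_of_nonneg_right (min_le_left _ _) (by positivity)
    · refine (matrixSteinitz_le m n).trans ((mul_le_mul_right (hsig p hp d (n / 2 * m) hd)
        2).trans ?_)
      have h2 : (2 : ℝ≥0∞) = ENNReal.ofReal 2 := by simp
      rw [h2, ← ENNReal.ofReal_mul (by norm_num)]
      apply ENNReal.ofReal_le_ofReal
      have hle : n / 2 * m ≤ m * n := by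
        rw [mul_comm m n]
        exact Nat.mul_le_mul_right m (Nat.div_le_self n 2)
      have h1le : 1 ≤ n / 2 * m := by
        calc 1 = 1 * 1 := rfl
          _ ≤ n / 2 * m := Nat.mul_le_mul (by omega) hm
      have h3 : ((min d (n / 2 * m) : ℕ) : ℝ) ^ (1 / p.toReal) ≤
          ((min d (m * n) : ℕ) : ℝ) ^ (1 / p.toReal) :=
        Real.rpow_le_rpow (Nat.cast_nonneg _)
          (by exact_mod_cast min_le_min le_rfl hle) (by positivity)
      have h4 := hFm d _ _ h1le hle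
      have h5 := hF d (n / 2 * m) hd
      calc 2 * (K * (((min d (n / 2 * m) : ℕ) : ℝ) ^ (1 / p.toReal) *
            min (g d) (Real.sqrt (1 + Real.log (n / 2 * m : ℕ) / d))))
          = 2 * K * (((min d (n / 2 * m) : ℕ) : ℝ) ^ (1 / p.toReal) *
            min (g d) (Real.sqrt (1 + Real.log (n / 2 * m : ℕ) / d))) := by ring
        _ ≤ 2 * K * (((min d (m * n) : ℕ) : ℝ) ^ (1 / p.toReal) *
            min (g d) (Real.sqrt (1 + Real.log (m * n : ℕ) / d))) := by
          refine mul_le_mul_of_nonneg_left (mul_le_mul h3 h4 (by linarith) (by positivity))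
            (by positivity)

end Vale.Agent.P262.H716
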