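import Vale.Agent.P262.H716.Forms

/-!
# Consequences of `σ(d) ≤ C √d` (P262)

The exact orders of `σ(d)` and `S_2(d)`, and of the constants of `ℓ_p^d`.
-/

open scoped ENNReal

namespace Vale.Agent.P262.H716

open Vale.Agent.P262 Vale.Agent.P262.H691 Vale.Agent.P262.H865

/-- **All forms of the bound `σ(d) ≤ C √d`.** -/
theorem forms_one
    (hσ : ∃ C : ℝ, 0 < C ∧ ∀ d : ℕ, 1 ≤ d → signedConst d ≤ ENNReal.ofReal (C * Real.sqrt d)) :
    ∃ c C : ℝ, 0 < c ∧ 0 < C ∧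
    -- (1) the two constants of the problem
    (∀ d : ℕ, 1 ≤ d →
      (ENNReal.ofReal (Real.sqrt d) ≤ signedConst d ∧
        signedConst d ≤ ENNReal.ofReal (C * Real.sqrt d)) ∧
      (ENNReal.ofReal (c * Real.sqrt d) ≤ steinitzConst d ∧
        steinitzConst d ≤ ENNReal.ofReal (C * Real.sqrt d))) ∧
    -- (2) `ℓ_p^d`, `1 ≤ p ≤ 2`, for a given number of vectors: both constants
    (∀ (p : ℝ≥0∞) [Fact (1 ≤ p)], p ≤ 2 → ∀ d N : ℕ, 1 ≤ d →
      (ENNReal.ofReal (((min d N : ℕ) : ℝ) ^ (1 / p.toReal)) ≤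
        signedN (PiLp p (fun _ : Fin d => ℝ)) N ∧
      signedN (PiLp p (fun _ : Fin d => ℝ)) N ≤
        ENNReal.ofReal (C * ((min d N : ℕ) : ℝ) ^ (1 / p.toReal))) ∧
      (2 ≤ N → ENNReal.ofReal (c * ((min d N : ℕ) : ℝ) ^ (1 / p.toReal)) ≤
        steinitzN (PiLp p (fun _ : Fin d => ℝ)) N) ∧
      steinitzN (PiLp p (fun _ : Fin d => ℝ)) N ≤
        ENNReal.ofReal (C * ((min d N : ℕ) : ℝ) ^ (1 / p.toReal))) ∧
    -- (3) `ℓ_p^d`, `2 ≤ p ≤ ∞`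
    (∀ (p : ℝ≥0∞) [Fact (1 ≤ p)], 2 ≤ p → ∀ d : ℕ, 1 ≤ d →
      ENNReal.ofReal (c * Real.sqrt d) ≤ signed (PiLp p (fun _ : Fin d => ℝ)) ∧
      signed (PiLp p (fun _ : Fin d => ℝ)) ≤
        ENNReal.ofReal (C * (d : ℝ) ^ (1 - 1 / p.toReal))) ∧
    -- (4) every normed space at distance at most `D` from a subspace of `ℓ_2^d`
    (∀ (d : ℕ), 1 ≤ d → ∀ (E : Type) [NormedAddCommGroup E] [NormedSpace ℝ E]
        (T : E →ₗ[ℝ] EuclideanSpace ℝ (Fin d)) (D : ℝ), 0 ≤ D →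
        (∀ x, ‖T x‖ ≤ ‖x‖ ∧ ‖x‖ ≤ D * ‖T x‖) →
      signed E ≤ ENNReal.ofReal (C * D * Real.sqrt d)) ∧
    -- (5) matrices of vectors in `ℓ_p^d`, `1 ≤ p ≤ 2`
    (∀ (p : ℝ≥0∞) [Fact (1 ≤ p)], p ≤ 2 → ∀ d m n : ℕ, 1 ≤ d → 1 ≤ m → 2 ≤ n →
      ENNReal.ofReal (c * ((min d (m * n) : ℕ) : ℝ) ^ (1 / p.toReal)) ≤
        matrixSteinitz (PiLp p (fun _ : Fin d => ℝ)) m n ∧
      matrixSteinitz (PiLp p (fun _ : Fin d => ℝ)) m n ≤
        ENNReal.ofReal (C * ((min d (m * n) : ℕ) : ℝ) ^ (1 / p.toReal))) := by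
  obtain ⟨C₀, hC₀, hup⟩ := hσ
  obtain ⟨c₁, C₁, hc₁, hC₁, F1, F2, F3, F4, F5⟩ := forms (g := fun _ => 1)
    (fun d _ => by norm_num) ⟨C₀, hC₀, fun d hd => by rw [mul_one]; exact hup d hd⟩
  obtain ⟨c₂, C₂, hc₂, hC₂, G1, G2, -, -⟩ := two_parameters
  have hone : ∀ d N : ℕ, min (1 : ℝ) (Real.sqrt (1 + Real.log N / d)) ≤ 1 := fun d N =>
    min_le_left _ _
  refine ⟨min c₁ c₂, C₁ + C₂, lt_min hc₁ hc₂, by positivity, ?_, ?_, ?_, ?_, ?_⟩
  · intro d hd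
    refine ⟨⟨(F1 d hd).1, (F1 d hd).2.trans (ENNReal.ofReal_le_ofReal ?_)⟩,
      le_trans (ENNReal.ofReal_le_ofReal ?_) (G1 d hd).1.1,
      (G1 d hd).1.2.trans (ENNReal.ofReal_le_ofReal ?_)⟩
    · rw [mul_one]
      exact mul_le_mul_of_nonneg_right (by linarith) (Real.sqrt_nonneg _)
    · exact mul_le_mul_of_nonneg_right (min_le_right _ _) (Real.sqrt_nonneg _)
    · exact mul_le_mul_of_nonneg_right (by linarith) (Real.sqrt_nonneg _)
  · intro p hp1 hp d N hd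
    have hx : 0 ≤ ((min d N : ℕ) : ℝ) ^ (1 / p.toReal) := by positivity
    refine ⟨⟨(F2 p hp d N hd).1, (F2 p hp d N hd).2.trans (ENNReal.ofReal_le_ofReal ?_)⟩,
      fun hN => le_trans (ENNReal.ofReal_le_ofReal ?_) ((G2 p hp d N hd).1 hN),
      (G2 p hp d N hd).2.1.trans (ENNReal.ofReal_le_ofReal ?_)⟩
    · have h1 := mul_le_mul_of_nonneg_left (hone d N) hx
      rw [mul_one] at h1
      calc C₁ * (((min d N : ℕ) : ℝ) ^ (1 / p.toReal) * min 1 (Real.sqrt (1 + Real.log N / d)))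
          ≤ C₁ * ((min d N : ℕ) : ℝ) ^ (1 / p.toReal) := mul_le_mul_of_nonneg_left h1 hC₁.le
        _ ≤ _ := mul_le_mul_of_nonneg_right (by linarith) hx
    · exact mul_le_mul_of_nonneg_right (min_le_right _ _) hx
    · exact mul_le_mul_of_nonneg_right (by linarith) hx
  · intro p hp1 hp d hd
    refine ⟨le_trans (ENNReal.ofReal_le_ofReal ?_) (F3 p hp d hd).1,
      (F3 p hp d hd).2.trans (ENNReal.ofReal_le_ofReal ?_)⟩
    · exact mul_le_mul_of_nonneg_right (min_le_left _ _) (Real.sqrt_nonneg _)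
    · rw [mul_one]
      exact mul_le_mul_of_nonneg_right (by linarith) (by positivity)
  · intro d hd E _ _ T D hD hT
    refine (F4 d hd E T D hD hT).trans (ENNReal.ofReal_le_ofReal ?_)
    rw [mul_one]
    exact mul_le_mul_of_nonneg_right (mul_le_mul_of_nonneg_right (by linarith) hD)
      (Real.sqrt_nonneg _)
  · intro p hp1 hp d m n hd hm hn
    have hx : 0 ≤ ((min d (m * n) : ℕ) : ℝ) ^ (1 / p.toReal) := by positivity
    refine ⟨le_trans (ENNReal.ofReal_le_ofReal ?_) (F5 p hp d m n hd hm hn).1,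
      (F5 p hp d m n hd hm hn).2.trans (ENNReal.ofReal_le_ofReal ?_)⟩
    · exact mul_le_mul_of_nonneg_right (min_le_left _ _) hx
    · have h1 := mul_le_mul_of_nonneg_left (hone d (m * n)) hx
      rw [mul_one] at h1
      calc C₁ * (((min d (m * n) : ℕ) : ℝ) ^ (1 / p.toReal) *
            min 1 (Real.sqrt (1 + Real.log (m * n : ℕ) / d)))
          ≤ C₁ * ((min d (m * n) : ℕ) : ℝ) ^ (1 / p.toReal) := mul_le_mul_of_nonneg_left h1 hC₁.le
        _ ≤ _ := mul_le_mul_of_nonneg_right (by linarith) hx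

end Vale.Agent.P262.H716
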